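import Vale.Agent.P254.LM.RadialA
import Vale.Agent.P254.LM.RadialB

/-!
# P254: one-dimensional lemmas (collects RadialA, RadialB)
-/
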