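import Vale.Agent.P254.LM.TransferA
import Vale.Agent.P254.LM.TransferB

/-!
# P254: affine changes of coordinates (collects TransferA, TransferB)
-/
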